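import Mathlib
import Vale.Agent.P248.MainQ1
import Vale.Agent.P248.JE

/-! P248 (Mahler): self-improvement of the inequalities of Q2 (by joins) and Q1 (by products and
free sums). -/

namespace Vale.Agent.Results.P248.Mahler

open _root_.P248
open scoped Nat
open _root_.P254 (IsBody vol)

theorem result :
    -- (1) the sharp inequality of Q2 in all dimensions iff `e^n / n! ≤ P(K)` in all dimensions
    ((∀ n : ℕ, 1 ≤ n → ∀ K : Set (Fin n → ℝ), IsBody K →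
        ((n : ℝ) + 1) ^ (n + 1) / (n ! : ℝ) ^ 2 ≤ VP K) ↔
      ∀ n : ℕ, 1 ≤ n → ∀ K : Set (Fin n → ℝ), IsBody K → Real.exp 1 ^ n / (n ! : ℝ) ≤ VP K) ∧
    -- (2) iff the asymptotic bound with exponential constant `e`
    ((∀ n : ℕ, 1 ≤ n → ∀ K : Set (Fin n → ℝ), IsBody K →
        ((n : ℝ) + 1) ^ (n + 1) / (n ! : ℝ) ^ 2 ≤ VP K) ↔
      ∀ ε : ℝ, 0 < ε → ε < Real.exp 1 → ∀ N₀ : ℕ, ∃ N ≥ N₀, ∀ K : Set (Fin N → ℝ), IsBody K →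
        (Real.exp 1 - ε) ^ N / (N ! : ℝ) ≤ VP K) ∧
    -- (3) one dimension down
    (∀ n : ℕ, (∀ K : Set (Fin (n + 1) → ℝ), IsBody K →
        ((n : ℝ) + 2) ^ (n + 2) / ((n + 1)! : ℝ) ^ 2 ≤ VP K) →
      ∀ K : Set (Fin n → ℝ), IsBody K → ((n : ℝ) + 1) ^ (n + 1) / (n ! : ℝ) ^ 2 ≤ VP K) ∧
    -- (4) one counterexample gives exponentially bad ones in every large dimension
    (∀ (n : ℕ) (K : Set (Fin n → ℝ)), IsBody K →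
      VP K < ((n : ℝ) + 1) ^ (n + 1) / (n ! : ℝ) ^ 2 →
      ∃ ε : ℝ, 0 < ε ∧ ε < 1 ∧ ∃ M : ℕ, ∀ N ≥ M, ∃ L : Set (Fin N → ℝ), IsBody L ∧
        VP L < (1 - ε) ^ N * (((N : ℝ) + 1) ^ (N + 1) / (N ! : ℝ) ^ 2)) ∧
    -- (5)-(7) the same for Q1
    (∀ n : ℕ, 1 ≤ n → Q1 (n + 1) 4 → Q1 n 4) ∧
    ((∀ n : ℕ, 1 ≤ n → Q1 n 4) ↔
      ∀ ε : ℝ, 0 < ε → ε < 4 → ∀ M : ℕ, ∃ N ≥ M, Q1 N (4 - ε)) ∧
    (∀ n : ℕ, 1 ≤ n → ∀ K : Set (Fin n → ℝ), IsBody K → (∀ x ∈ K, -x ∈ K) →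
      vol K * vol (pol K 0) < 4 ^ n / (n ! : ℝ) →
      ∃ ε : ℝ, 0 < ε ∧ ε < 4 ∧ ∃ M : ℕ, ∀ N ≥ M, ∃ L : Set (Fin N → ℝ), IsBody L ∧
        (∀ x ∈ L, -x ∈ L) ∧ vol L * vol (pol L 0) < (4 - ε) ^ N / (N ! : ℝ)) := by
  refine ⟨⟨fun h n hn K hK => (simplex_lower n).trans (h n hn K hK), fun h => ?_⟩, q2_iff_exp,
    fun n h => q2_step (n := n) ?_, fun n K hK h => q2_fail hK h,
    fun _ hn h => one_step hn h, Q1Part.q1_iff (by norm_num), fun _ hn _ hK hs hlt =>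
      Q1Part.q1_amplify hn hK hs hlt⟩
  · refine q2_iff_exp.2 fun ε h0 h1 N₀ => ⟨N₀ + 1, by omega, fun K hK => ?_⟩
    refine le_trans ?_ (h (N₀ + 1) (by omega) K hK)
    gcongr
    linarith
  · intro K hK
    have h1 := h K hK
    unfold PS
    have e : (((n + 1 : ℕ) : ℝ) + 1) = (n : ℝ) + 2 := by push_cast; ring
    rw [e]
    exact h1

end Vale.Agent.Results.P248.Mahler
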