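import Mathlib
import Vale.Agent.P248.JMain

/-! P248: the general Mahler inequality (Q2): reduction of the dimension by pyramids, and the
equivalence of the sharp inequality in all dimensions with its asymptotic form, by joins. -/

namespace Vale.Agent.Results.P248.Simplex

open _root_.P248
open scoped Nat
open _root_.P254 (IsBody vol)

theorem result :
    (∀ n : ℕ, (∀ K : Set (Fin (n + 1) → ℝ), IsBody K →
        ((n : ℝ) + 2) ^ (n + 2) / ((n + 1)! : ℝ) ^ 2 ≤ VP K) →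
      ∀ K : Set (Fin n → ℝ), IsBody K → ((n : ℝ) + 1) ^ (n + 1) / (n ! : ℝ) ^ 2 ≤ VP K) ∧
    ((∀ n : ℕ, 1 ≤ n → ∀ K : Set (Fin n → ℝ), IsBody K →
        ((n : ℝ) + 1) ^ (n + 1) / (n ! : ℝ) ^ 2 ≤ VP K) ↔
      ∀ ε : ℝ, 0 < ε → ε < 1 → ∀ N₀ : ℕ, ∃ N ≥ N₀, ∀ K : Set (Fin N → ℝ), IsBody K →
        (1 - ε) ^ N * (((N : ℝ) + 1) ^ (N + 1) / (N ! : ℝ) ^ 2) ≤ VP K) ∧
    (∀ (n : ℕ) (K : Set (Fin n → ℝ)), IsBody K →
      VP K < ((n : ℝ) + 1) ^ (n + 1) / (n ! : ℝ) ^ 2 →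
      ∃ ε : ℝ, 0 < ε ∧ ε < 1 ∧ ∃ M : ℕ, ∀ N ≥ M, ∃ L : Set (Fin N → ℝ), IsBody L ∧
        VP L < (1 - ε) ^ N * (((N : ℝ) + 1) ^ (N + 1) / (N ! : ℝ) ^ 2)) := by
  refine ⟨fun n h => q2_step (n := n) ?_, q2_iff, fun n K hK h => q2_fail hK h⟩
  intro K hK
  have h1 := h K hK
  unfold PS
  have e : (((n + 1 : ℕ) : ℝ) + 1) = (n : ℝ) + 2 := by push_cast; ring
  rw [e]
  exact h1

end Vale.Agent.Results.P248.Simplex
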