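import Mathlib
import Vale.Agent.P248.Main2

/-! P248 (Mahler): the inequality of Q1 in dimension `n + 1` implies it in dimension `n`; Q1's
inequality in all dimensions is equivalent to its asymptotic form along arbitrarily large
dimensions; a counterexample becomes exponentially bad in every large dimension; and the same
self-improvement for the volume product `P` of general bodies. -/

namespace Vale.Agent.Results.P248.TensorPower

open _root_.P248
open _root_.P254 (IsBody vol)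
open scoped Nat

theorem result :
    -- (1) one dimension down
    (∀ n : ℕ, 1 ≤ n → Q1 (n + 1) 4 → Q1 n 4) ∧
    -- (2) Q1's inequality for all dimensions iff its asymptotic form, any constant `c`
    (∀ c : ℝ, 0 < c → ((∀ n : ℕ, 1 ≤ n → Q1 n c) ↔
      ∀ ε : ℝ, 0 < ε → ε < c → ∀ M : ℕ, ∃ N ≥ M, Q1 N (c - ε))) ∧
    -- (3) the same for all convex bodies and `P(K)`
    (∀ c : ℝ, 0 < c → ((∀ n : ℕ, 1 ≤ n → Q2 n c) ↔
      ∀ ε : ℝ, 0 < ε → ε < c → ∀ M : ℕ, ∃ N ≥ M, Q2 N (c - ε))) ∧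
    -- (4) one counterexample gives exponentially bad ones in every large dimension
    (∀ n : ℕ, 1 ≤ n → ∀ K : Set (Fin n → ℝ), IsBody K → (∀ x ∈ K, -x ∈ K) →
      vol K * vol (pol K 0) < 4 ^ n / (n ! : ℝ) →
      ∃ ε : ℝ, 0 < ε ∧ ε < 4 ∧ ∃ M : ℕ, ∀ N ≥ M, ∃ L : Set (Fin N → ℝ), IsBody L ∧
        (∀ x ∈ L, -x ∈ L) ∧ vol L * vol (pol L 0) < (4 - ε) ^ N / (N ! : ℝ)) :=
  ⟨fun _ hn h => one_step hn h, fun _ hc => q1_iff hc, fun _ hc => q2_iff hc,
    fun _ hn _ hK hs hlt => q1_amplify hn hK hs hlt⟩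

end Vale.Agent.Results.P248.TensorPower
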